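import Vale.Agent.P281.H624.TS.Cls
import Vale.Agent.P281.H840.TS.C2a
import Vale.Agent.P281.H740.TS.Lin

/-!
# P281, T-S, block D3 (helper594): the intersection form in terms of the classes
-/

open Set Filter Metric MeasureTheory Vale.Agent.P272.K
open scoped Topology ContDiff ComplexConjugate ComplexOrder

noncomputable section

namespace Vale.Agent.P281.H594.TS

open Vale.Agent.P281.H64.TK Vale.Agent.P281.H64.TK.TS

section int
variable {d : ℕ} {E Γ : Type} [TopologicalSpace E] [Group Γ] [MulAction Γ E]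

theorem P_sub3 (S : Sheets d E Γ) (i : Fin S.N) : S.P i ⊆ ball 0 3 :=
  (H840.TS.P_sub S i).trans (ball_subset_ball (by norm_num))

theorem int_congr [Subsingleton Γ] (S : Sheets d E Γ) {D D' : Fin S.N → Cm d → ℂ}
    (h : ∀ i, ∀ z ∈ ball (0 : Cm d) 3, D i z = D' i z) : S.int D = S.int D' := by
  unfold Sheets.int
  refine Finset.sum_congr rfl fun i _ => setIntegral_congr_fun (H840.TS.meas_P S i) fun z hz => ?_
  exact h i z (P_sub3 S i hz)

theorem int_add (S : Sheets d E Γ) {D D' : Fin S.N → Cm d → ℂ}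
    (h : ∀ i, ContinuousOn (D i) (ball 0 3)) (h' : ∀ i, ContinuousOn (D' i) (ball 0 3)) :
    S.int (fun i z => D i z + D' i z) = S.int D + S.int D' := by
  unfold Sheets.int
  rw [← Finset.sum_add_distrib]
  exact Finset.sum_congr rfl fun i _ => integral_add (H840.TS.integ S i (h i) (H840.TS.P_sub S i))
    (H840.TS.integ S i (h' i) (H840.TS.P_sub S i))

theorem int_mul (S : Sheets d E Γ) (c : ℂ) (D : Fin S.N → Cm d → ℂ) :
    S.int (fun i z => c * D i z) = c * S.int D := by
  unfold Sheets.int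
  rw [Finset.mul_sum]
  exact Finset.sum_congr rfl fun i _ => integral_const_mul c _

theorem int_sum (S : Sheets d E Γ) {ι : Type} (s : Finset ι) (D : ι → Fin S.N → Cm d → ℂ)
    (h : ∀ k i, ContinuousOn (D k i) (ball 0 3)) :
    S.int (fun i z => ∑ k ∈ s, D k i z) = ∑ k ∈ s, S.int (D k) := by
  unfold Sheets.int
  rw [Finset.sum_comm]
  refine Finset.sum_congr rfl fun i _ => ?_
  exact integral_finsetSum s fun k _ => H840.TS.integ S i (h k i) (H840.TS.P_sub S i)

/-- The integral of a real density. -/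
theorem int_real [Subsingleton Γ] (S : Sheets d E Γ) {D : Fin S.N → Cm d → ℂ}
    (h : ∀ i, ∀ z ∈ ball (0 : Cm d) 3, (D i z).im = 0) :
    S.int D = ((∑ i, ∫ z in S.P i, (D i z).re : ℝ) : ℂ) := by
  have h1 : S.int D = S.int (fun i z => (((D i z).re : ℝ) : ℂ)) :=
    int_congr S fun i z hz => by
      apply Complex.ext
      · simp
      · simp [h i z hz]
  rw [h1]
  unfold Sheets.int
  push_cast
  refine Finset.sum_congr rfl fun i _ => ?_
  exact integral_ofReal

theorem int_pos [Subsingleton Γ] (S : Sheets d E Γ) {D : Fin S.N → Cm d → ℝ}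
    (hc : ∀ i, ContinuousOn (D i) (ball 0 3)) (h0 : ∀ i, ∀ z ∈ ball (0 : Cm d) 3, 0 ≤ D i z)
    (hinv : ∀ i j, ∀ z ∈ ball (0 : Cm d) 3, ∀ w ∈ ball (0 : Cm d) 3, S.σ i z = S.σ j w →
      0 < D i z → 0 < D j w)
    (hex : ∃ i, ∃ z ∈ ball (0 : Cm d) 3, 0 < D i z) :
    0 < (S.int fun i z => ((D i z : ℝ) : ℂ)).re := by
  classical
  have h13 : ball (0 : Cm d) 1 ⊆ ball (0 : Cm d) 3 := ball_subset_ball (by norm_num)
  have h1 := int_real S (D := fun i z => ((D i z : ℝ) : ℂ)) (fun i z _ => Complex.ofReal_im _)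
  rw [h1, Complex.ofReal_re]
  simp only [Complex.ofReal_re]
  have hnn : ∀ i, 0 ≤ ∫ z in S.P i, D i z := fun i =>
    setIntegral_nonneg (H840.TS.meas_P S i) fun z hz => h0 i z (P_sub3 S i hz)
  -- the first sheet where the density is not zero
  have hne : (Finset.univ.filter fun j : Fin S.N => ∃ w ∈ ball (0 : Cm d) 1, 0 < D j w).Nonempty := by
    obtain ⟨i, z, hz, hpos⟩ := hex
    obtain ⟨j, w, hw, he⟩ := H624.TS.cov S (S.σ i z)
    refine ⟨j, ?_⟩
    simp only [Finset.mem_filter, Finset.mem_univ, true_and]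
    exact ⟨w, by simpa using hw, hinv i j z hz w (H624.TS.mem3 hw) he.symm hpos⟩
  set j := Finset.min' _ hne with hj
  have hjm := Finset.min'_mem _ hne
  rw [← hj] at hjm
  simp only [Finset.mem_filter, Finset.mem_univ, true_and] at hjm
  obtain ⟨w, hw, hwpos⟩ := hjm
  have hVo : IsOpen (ball (0 : Cm d) 1 ∩ (D j) ⁻¹' Ioi 0) :=
    ((hc j).mono h13).isOpen_inter_preimage isOpen_ball isOpen_Ioi
  have hVP : ball (0 : Cm d) 1 ∩ (D j) ⁻¹' Ioi 0 ⊆ S.P j := by
    rintro x ⟨hx, hxpos⟩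
    rw [H840.TS.mem_P]
    refine ⟨hx, ?_⟩
    rintro k hk ⟨y, hy, hyx⟩
    have h2 : 0 < D k y := hinv j k x (h13 hx) y (h13 hy) hyx.symm hxpos
    have h3 := Finset.min'_le (Finset.univ.filter fun j : Fin S.N =>
      ∃ w ∈ ball (0 : Cm d) 1, 0 < D j w) k (by simpa using ⟨y, by simpa using hy, h2⟩)
    exact absurd h3 (not_le.2 hk)
  refine Finset.sum_pos' (fun i _ => hnn i) ⟨j, Finset.mem_univ j, ?_⟩
  have hint : IntegrableOn (D j) (S.P j) := by
    have h2 : IntegrableOn (D j) (closedBall (0 : Cm d) 1) :=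
      ((hc j).mono (closedBall_subset_ball (by norm_num))).integrableOn_compact
        (isCompact_closedBall 0 1)
    exact h2.mono_set ((H840.TS.P_sub S j).trans ball_subset_closedBall)
  have hae : 0 ≤ᵐ[volume.restrict (S.P j)] (D j) := by
    refine (ae_restrict_iff' (H840.TS.meas_P S j)).2 (Eventually.of_forall fun z hz => ?_)
    exact h0 j z (P_sub3 S j hz)
  rw [setIntegral_pos_iff_support_of_nonneg_ae hae hint]
  refine lt_of_lt_of_le (hVo.measure_pos volume ⟨w, hw, hwpos⟩) (measure_mono ?_)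
  rintro x hx
  exact ⟨(show 0 < D j x from hx.2).ne', hVP hx⟩

end int

/-! ### Algebra of `wd` -/

theorem wd_comm (a b : L2 2) : wd a b = wd b a := by unfold wd; ring

theorem wd_add (a a' b : L2 2) : wd (a + a') b = wd a b + wd a' b := by
  simp only [wd, add_apply]; ring

theorem wd_smul (c : ℂ) (a b : L2 2) : wd (c • a) b = c * wd a b := by
  simp only [wd, smul_apply, smul_eq_mul]; ring

theorem wd_zero (b : L2 2) : wd 0 b = 0 := by
  simp [wd]

theorem wd_sub (a a' b : L2 2) : wd (a - a') b = wd a b - wd a' b := by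
  simp only [wd, sub_apply]; ring

theorem wd_sum {ι : Type} (s : Finset ι) (a : ι → L2 2) (b : L2 2) :
    wd (∑ k ∈ s, a k) b = ∑ k ∈ s, wd (a k) b := by
  classical
  induction s using Finset.induction_on with
  | empty => simp [wd_zero]
  | insert k s hk ih => rw [Finset.sum_insert hk, Finset.sum_insert hk, wd_add, ih]

theorem wd_cont {α α' : Cm 2 → L2 2} {V : Set (Cm 2)} (h : ContinuousOn α V)
    (h' : ContinuousOn α' V) : ContinuousOn (fun z => wd (α z) (α' z)) V := by
  have e : ∀ u v : Cm 2, ContinuousOn (fun z => α z u v) V := fun u v =>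
    (h.clm_apply continuousOn_const).clm_apply continuousOn_const
  have e' : ∀ u v : Cm 2, ContinuousOn (fun z => α' z u v) V := fun u v =>
    (h'.clm_apply continuousOn_const).clm_apply continuousOn_const
  unfold wd
  exact ((((((e _ _).mul (e' _ _)).sub ((e _ _).mul (e' _ _))).add ((e _ _).mul (e' _ _))).add
    ((e _ _).mul (e' _ _))).sub ((e _ _).mul (e' _ _))).add ((e _ _).mul (e' _ _))

section wint
variable {E Γ : Type} [TopologicalSpace E] [Group Γ] [MulAction Γ E] {S : Sheets 2 E Γ}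
variable {α α' α'' : Fin S.N → Cm 2 → L2 2}

theorem cl2_cont (h : Cl2 S α) (i : Fin S.N) : ContinuousOn (α i) (ball 0 3) := fun z hz =>
  (h.smooth i z hz (mem_univ _)).continuousAt.continuousWithinAt

theorem wint_comm (S : Sheets 2 E Γ) (α α' : Fin S.N → Cm 2 → L2 2) :
    wint S α α' = wint S α' α := by
  unfold wint
  congr 1
  funext i z
  exact wd_comm _ _

theorem wint_congr [Subsingleton Γ] (h : ∀ i, ∀ z ∈ ball (0 : Cm 2) 3, α i z = α'' i z) :
    wint S α α' = wint S α'' α' :=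
  int_congr S fun i z hz => by rw [h i z hz]

theorem wint_congr' [Subsingleton Γ] (h : ∀ i, ∀ z ∈ ball (0 : Cm 2) 3, α' i z = α'' i z) :
    wint S α α' = wint S α α'' :=
  int_congr S fun i z hz => by rw [h i z hz]

theorem wint_add (h : ∀ i, ContinuousOn (α i) (ball 0 3))
    (h' : ∀ i, ContinuousOn (α' i) (ball 0 3)) (h'' : ∀ i, ContinuousOn (α'' i) (ball 0 3)) :
    wint S (fun i z => α i z + α' i z) α'' = wint S α α'' + wint S α' α'' := by
  unfold wint
  rw [← int_add S (fun i => wd_cont (h i) (h'' i)) (fun i => wd_cont (h' i) (h'' i))]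
  congr 1
  funext i z
  exact wd_add _ _ _

theorem wint_smul (c : ℂ) (α α' : Fin S.N → Cm 2 → L2 2) :
    wint S (fun i z => c • α i z) α' = c * wint S α α' := by
  unfold wint
  rw [← int_mul]
  congr 1
  funext i z
  exact wd_smul _ _ _

theorem wint_sum {n : ℕ} (c : Fin n → ℂ) {b : Fin n → Fin S.N → Cm 2 → L2 2}
    (h : ∀ k i, ContinuousOn (b k i) (ball 0 3)) (h' : ∀ i, ContinuousOn (α' i) (ball 0 3)) :
    wint S (fun i z => ∑ k, c k • b k i z) α' = ∑ k, c k * wint S (b k) α' := by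
  have h1 : wint S (fun i z => ∑ k, c k • b k i z) α' =
      ∑ k, S.int (fun i z => c k * wd (b k i z) (α' i z)) := by
    rw [← int_sum S Finset.univ (fun k i z => c k * wd (b k i z) (α' i z))
      (fun k i => continuousOn_const.mul (wd_cont (h k i) (h' i)))]
    unfold wint
    congr 1
    funext i z
    rw [wd_sum]
    exact Finset.sum_congr rfl fun k _ => wd_smul _ _ _
  rw [h1]
  exact Finset.sum_congr rfl fun k _ => int_mul S _ _

theorem d1_eq_of {i : Fin S.N} {β : Fin S.N → Cm 2 → L1 2} (h : IsD1 S univ β α) {z : Cm 2}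
    (hz : z ∈ ball (0 : Cm 2) 3) : α i z = d1 (β i) z := by
  ext u v
  exact (h i z hz (mem_univ _) u v).symm

variable [T2Space E] [Subsingleton Γ] [ContinuousConstSMul Γ E]

theorem wint_exact (hSt : StokesStmt) (hα' : Cl2 S α') (h : Exact S α) : wint S α α' = 0 := by
  obtain ⟨β, h1, h2⟩ := h
  rw [← hSt E Γ S α' β hα' h1]
  exact wint_congr fun i z hz => d1_eq_of h2 hz

omit [T2Space E] [Subsingleton Γ] [ContinuousConstSMul Γ E] in
/-- linear combinations of closed forms -/
theorem cl2_sum {n : ℕ} (c : Fin n → ℂ) {b : Fin n → Fin S.N → Cm 2 → L2 2}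
    (h : ∀ k, Cl2 S (b k)) : Cl2 S (fun i z => ∑ k, c k • b k i z) := by
  classical
  have h1 : ∀ s : Finset (Fin n), Cl2 S (fun i z => ∑ k ∈ s, c k • b k i z) := by
    intro s
    induction s using Finset.induction_on with
    | empty => simpa using H740.TS.cl2_zero
    | insert k s hk ih =>
      have e1 : (fun i z => ∑ k ∈ insert k s, c k • b k i z) =
          fun i z => c k • b k i z + ∑ k ∈ s, c k • b k i z := by
        funext i z
        exact Finset.sum_insert hk
      rw [e1]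
      exact H740.TS.cl2_add (H740.TS.cl2_smul (c k) (h k)) ih
  exact h1 Finset.univ

theorem wint_exp (hSt : StokesStmt) {n : ℕ} (M : Mark2 S n) (hα : Cl2 S α) (hα' : Cl2 S α') :
    wint S α α' = ∑ k, M.cl α k * wint S (M.b k) α' := by
  have h1 := M.ex α hα
  have h2 := wint_exact hSt hα' h1
  have hs := cl2_sum (M.cl α) M.closed
  have h3 : wint S α α' = wint S (fun i z => (α i z - ∑ k, M.cl α k • M.b k i z) +
      ∑ k, M.cl α k • M.b k i z) α' := wint_congr fun i z _ => by abel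
  have hd : ∀ i, ContinuousOn (fun z => α i z - ∑ k, M.cl α k • M.b k i z) (ball 0 3) := fun i =>
    cl2_cont (H624.TS.cl2_sub hα hs) i
  rw [h3, wint_add hd (cl2_cont hs) (cl2_cont hα'), h2, zero_add,
    wint_sum _ (fun k => cl2_cont (M.closed k)) (cl2_cont hα')]

omit [T2Space E] [ContinuousConstSMul Γ E] in
theorem wint_im (hr : Real2 S α) (hr' : Real2 S α') : (wint S α α').im = 0 := by
  unfold wint
  rw [int_real S fun i z hz => ?_, Complex.ofReal_im]
  have h1 : ∀ u v, α i z u v = (((α i z u v).re : ℝ) : ℂ) := fun u v => by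
    apply Complex.ext
    · simp
    · simp [hr i z hz u v]
  have h2 : ∀ u v, α' i z u v = (((α' i z u v).re : ℝ) : ℂ) := fun u v => by
    apply Complex.ext
    · simp
    · simp [hr' i z hz u v]
  unfold wd
  rw [h1 (rb2 0) (rb2 1), h1 (rb2 0) (rb2 2), h1 (rb2 0) (rb2 3), h1 (rb2 1) (rb2 2),
    h1 (rb2 1) (rb2 3), h1 (rb2 2) (rb2 3), h2 (rb2 0) (rb2 1), h2 (rb2 0) (rb2 2),
    h2 (rb2 0) (rb2 3), h2 (rb2 1) (rb2 2), h2 (rb2 1) (rb2 3), h2 (rb2 2) (rb2 3)]
  norm_cast

end wint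

/-! ### Complex conjugation -/

section cjs
variable {d : ℕ}

/-- The conjugate of a 1-form. -/
def C1 : L1 d →L[ℝ] L1 d :=
  ContinuousLinearMap.compL ℝ (Cm d) ℂ ℂ (Complex.conjCLE : ℂ →L[ℝ] ℂ)

/-- The conjugate of a 2-form. -/
def C2 : L2 d →L[ℝ] L2 d := ContinuousLinearMap.compL ℝ (Cm d) (L1 d) (L1 d) C1

theorem C1_apply (b : L1 d) (v : Cm d) : C1 b v = conj (b v) := rfl

theorem C2_apply (a : L2 d) (u v : Cm d) : C2 a u v = conj (a u v) := rfl

theorem fd_C1 {β : Cm d → L1 d} {z : Cm d} (h : DifferentiableAt ℝ β z) (u v : Cm d) :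
    fderiv ℝ (fun y => C1 (β y)) z u v = conj (fderiv ℝ β z u v) := by
  have h0 : HasFDerivAt (fun b : L1 d => C1 b) C1 (β z) :=
    ContinuousLinearMap.hasFDerivAt (𝕜 := ℝ) (E := L1 d) (F := L1 d) C1
  have h2 : HasFDerivAt (fun y => C1 (β y)) (C1.comp (fderiv ℝ β z)) z :=
    HasFDerivAt.comp (𝕜 := ℝ) (E := Cm d) (F := L1 d) (G := L1 d) (g := fun b => C1 b)
      (f := fun z => β z) z h0 h.hasFDerivAt
  rw [h2.fderiv]
  rfl

theorem fd_C2 {α : Cm d → L2 d} {z : Cm d} (h : DifferentiableAt ℝ α z) (u v w : Cm d) :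
    fderiv ℝ (fun y => C2 (α y)) z u v w = conj (fderiv ℝ α z u v w) := by
  have h0 : HasFDerivAt (fun b : L2 d => C2 b) C2 (α z) :=
    ContinuousLinearMap.hasFDerivAt (𝕜 := ℝ) (E := L2 d) (F := L2 d) C2
  have h2 : HasFDerivAt (fun y => C2 (α y)) (C2.comp (fderiv ℝ α z)) z :=
    HasFDerivAt.comp (𝕜 := ℝ) (E := Cm d) (F := L2 d) (G := L2 d) (g := fun b => C2 b)
      (f := fun z => α z) z h0 h.hasFDerivAt
  rw [h2.fderiv]
  rfl

variable {E Γ : Type} [TopologicalSpace E] [Group Γ] [MulAction Γ E] {S : Sheets d E Γ}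
variable {α α' : Fin S.N → Cm d → L2 d}

theorem cl2_conj (h : Cl2 S α) : Cl2 S (fun i z => C2 (α i z)) where
  smooth i z hz hV := by
    have h0 : ContDiffAt ℝ ∞ (fun b : L2 d => C2 b) (α i z) :=
      (ContinuousLinearMap.contDiff (𝕜 := ℝ) (E := L2 d) (F := L2 d) C2).contDiffAt
    exact ContDiffAt.comp (𝕜 := ℝ) (E := Cm d) (F := L2 d) (G := L2 d) (g := fun b => C2 b)
      (f := fun z => α i z) z h0 (h.smooth i z hz hV)
  alt i z hz hV u v := by
    rw [C2_apply, C2_apply, h.alt i z hz hV u v, map_neg]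
  change i j z hz z' hz' hV ψ hψ u v := by
    rw [C2_apply, C2_apply, h.change i j z hz z' hz' hV ψ hψ u v]
  closed i z hz u v w := by
    have hd : DifferentiableAt ℝ (α i) z :=
      (h.smooth i z hz (mem_univ _)).differentiableAt (by simp)
    rw [fd_C2 hd, fd_C2 hd, fd_C2 hd, ← map_add, ← map_add, h.closed i z hz u v w, map_zero]

theorem exact_conj (h : Exact S α) : Exact S (fun i z => C2 (α i z)) := by
  obtain ⟨β, h1, h2⟩ := h
  refine ⟨fun i z => C1 (β i z), ⟨fun i z hz hV => ?_, fun i j z hz z' hz' hV ψ hψ v => ?_⟩,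
    fun i z hz hV u v => ?_⟩
  · have h0 : ContDiffAt ℝ ∞ (fun b : L1 d => C1 b) (β i z) :=
      (ContinuousLinearMap.contDiff (𝕜 := ℝ) (E := L1 d) (F := L1 d) C1).contDiffAt
    exact ContDiffAt.comp (𝕜 := ℝ) (E := Cm d) (F := L1 d) (G := L1 d) (g := fun b => C1 b)
      (f := fun z => β i z) z h0 (h1.smooth i z hz hV)
  · rw [C1_apply, C1_apply, h1.change i j z hz z' hz' hV ψ hψ v]
  · have hd : DifferentiableAt ℝ (β i) z :=
      (h1.smooth i z hz (mem_univ _)).differentiableAt (by simp)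
    rw [fd_C1 hd, fd_C1 hd, C2_apply, ← h2 i z hz hV u v, map_sub]

theorem exact_congr (h : Exact S α) (he : ∀ i, ∀ z ∈ ball (0 : Cm d) 3, α i z = α' i z) :
    Exact S α' := by
  obtain ⟨β, h1, h2⟩ := h
  exact ⟨β, h1, fun i z hz hV u v => by rw [h2 i z hz hV u v, he i z hz]⟩

theorem exact_sub (h : Exact S α) (h' : Exact S α') : Exact S (fun i z => α i z - α' i z) := by
  obtain ⟨β, h1, h2⟩ := h
  obtain ⟨β', h1', h2'⟩ := h'
  refine ⟨fun i z => β i z - β' i z, ⟨fun i z hz hV => (h1.smooth i z hz hV).sub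
    (h1'.smooth i z hz hV), fun i j z hz z' hz' hV ψ hψ v => ?_⟩, fun i z hz hV u v => ?_⟩
  · simp only [sub_apply, h1.change i j z hz z' hz' hV ψ hψ v,
      h1'.change i j z hz z' hz' hV ψ hψ v]
  · have e1 : DifferentiableAt ℝ (β i) z :=
      (h1.smooth i z hz (mem_univ _)).differentiableAt (by simp)
    have e2 : DifferentiableAt ℝ (β' i) z :=
      (h1'.smooth i z hz (mem_univ _)).differentiableAt (by simp)
    have e3 : fderiv ℝ (fun y => β i y - β' i y) z = fderiv ℝ (β i) z - fderiv ℝ (β' i) z :=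
      (e1.hasFDerivAt.sub e2.hasFDerivAt).fderiv
    rw [e3]
    have k1 := h2 i z hz hV u v
    have k2 := h2' i z hz hV u v
    simp only [sub_apply]
    linear_combination k1 - k2

theorem exact_zero : Exact S (fun _ _ => (0 : L2 d)) := by
  refine ⟨fun _ _ => 0, ⟨fun _ _ _ _ => contDiffAt_const, fun _ _ _ _ _ _ _ _ _ _ => rfl⟩,
    fun i z hz hV u v => ?_⟩
  have h0 := (hasFDerivAt_const (𝕜 := ℝ) (0 : L1 d) z).fderiv
  show fderiv ℝ (fun _ : Cm d => (0 : L1 d)) z u v - fderiv ℝ (fun _ : Cm d => (0 : L1 d)) z v u = 0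
  rw [h0]
  simp

/-- The class is determined by the form. -/
theorem cl_eq {n : ℕ} (M : Mark2 S n) (hα : Cl2 S α) {c : Fin n → ℂ}
    (h : Exact S (fun i z => α i z - ∑ k, c k • M.b k i z)) : M.cl α = c := by
  have h1 := exact_sub h (M.ex α hα)
  have h2 : Exact S (fun i z => ∑ k, (M.cl α k - c k) • M.b k i z) := by
    refine exact_congr h1 fun i z _ => ?_
    ext u v
    simp only [sub_apply, sum_apply, smul_apply, smul_eq_mul, sub_mul, Finset.sum_sub_distrib]
    ring
  have h3 := M.indep _ h2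
  funext k
  exact sub_eq_zero.1 (congrFun h3 k)

theorem cl_conj {n : ℕ} (M : Mark2 S n) (hα : Cl2 S α) :
    M.cl (fun i z => C2 (α i z)) = star (M.cl α) := by
  refine cl_eq M (cl2_conj hα) ?_
  refine exact_congr (exact_conj (M.ex α hα)) fun i z hz => ?_
  ext u v
  have hb : ∀ k, conj (M.b k i z u v) = M.b k i z u v := fun k =>
    Complex.conj_eq_iff_im.2 (M.real k i z hz u v)
  simp only [C2_apply, sub_apply, sum_apply, smul_apply, smul_eq_mul, map_sub, map_sum, map_mul, hb,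
    Pi.star_apply, RCLike.star_def]

theorem cl_congr {n : ℕ} (M : Mark2 S n) (hα : Cl2 S α) (hα' : Cl2 S α')
    (h : ∀ i, ∀ z ∈ ball (0 : Cm d) 3, α i z = α' i z) : M.cl α = M.cl α' :=
  cl_eq M hα (exact_congr (M.ex α' hα') fun i z hz => by rw [h i z hz])

end cjs

end Vale.Agent.P281.H594.TS
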