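import Vale.Agent.P281.H64.TS.Spec2
import Vale.Agent.P281.H594.TS.Per0

/-!
# P281, T-S, block D3 (helper594): the periods of one surface
-/

open Set Filter Metric MeasureTheory Vale.Agent.P272.K Vale.Agent.P281.H713
open scoped Topology ContDiff ComplexConjugate ComplexOrder

noncomputable section

namespace Vale.Agent.P281.H594.TS

open Vale.Agent.P281.H64.TK Vale.Agent.P281.H64.TK.TS

theorem C2_app (a : L2 2) (u v : Cm 2) : C2 a u v = conj (a u v) := rfl

theorem wd_sf_sf (s s' : ℂ) : wd (sf2 s) (sf2 s') = 0 := by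
  simp only [wd, H624.TS.sf2_apply, rb2]
  simp
  ring_nf
  simp

theorem wd_sf_kf (s : ℂ) (w : Matrix (Fin 2) (Fin 2) ℂ) : wd (sf2 s) (kf2 w) = 0 := by
  simp only [wd, H624.TS.sf2_apply, H624.TS.kf2_apply, rb2, Fin.sum_univ_two]
  simp
  ring

theorem wd_sf_conj (s : ℂ) : wd (sf2 s) (C2 (sf2 s)) = 4 * ((‖s‖ ^ 2 : ℝ) : ℂ) := by
  simp only [wd, C2_app, H624.TS.sf2_apply, rb2]
  have h1 : ((‖s‖ ^ 2 : ℝ) : ℂ) = s * conj s := by
    rw [Complex.mul_conj, Complex.normSq_eq_norm_sq]
  rw [h1]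
  simp
  ring_nf
  simp only [Complex.I_sq]
  ring

theorem wd_kf (w : Matrix (Fin 2) (Fin 2) ℂ) : wd (kf2 w) (kf2 w) = 2 * w.det := by
  simp only [wd, H624.TS.kf2_apply, rb2, Fin.sum_univ_two, Matrix.det_fin_two]
  simp
  ring_nf
  have h4 : Complex.I ^ 4 = 1 := by rw [show (4:ℕ) = 2 * 2 by rfl, pow_mul, Complex.I_sq]; ring
  simp only [Complex.I_sq, h4]
  ring

theorem kf_conj {w : Matrix (Fin 2) (Fin 2) ℂ} (h : w.IsHermitian) (u v : Cm 2) :
    conj (kf2 w u v) = kf2 w u v := by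
  have h00 : conj (w 0 0) = w 0 0 := h.apply 0 0
  have h01 : conj (w 0 1) = w 1 0 := h.apply 1 0
  have h10 : conj (w 1 0) = w 0 1 := h.apply 0 1
  have h11 : conj (w 1 1) = w 1 1 := h.apply 1 1
  simp only [H624.TS.kf2_apply, Fin.sum_univ_two, map_mul, map_div₀, map_add, map_sub,
    Complex.conj_I, Complex.conj_conj, h00, h01, h10, h11, map_ofNat]
  ring

section main
variable {E Γ : Type} [TopologicalSpace E] [Group Γ] [MulAction Γ E] {S : Sheets 2 E Γ} {n : ℕ}

theorem Bm_eq [Subsingleton Γ] (M : Mark2 S n) (k l : Fin n) :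
    ((Bm M k l : ℝ) : ℂ) = wint S (M.b k) (M.b l) := by
  apply Complex.ext
  · simp [Bm]
  · simp [wint_im (M.real k) (M.real l)]

theorem bil_cl [T2Space E] [Subsingleton Γ] [ContinuousConstSMul Γ E] (hSt : StokesStmt)
    (M : Mark2 S n) {α α' : Fin S.N → Cm 2 → L2 2} (hα : Cl2 S α) (hα' : Cl2 S α') :
    bil (Bm M) (M.cl α) (M.cl α') = wint S α α' := by
  rw [wint_exp hSt M hα hα']
  unfold bil
  refine Finset.sum_congr rfl fun k _ => ?_
  rw [wint_comm, wint_exp hSt M hα' (M.closed k), Finset.mul_sum]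
  refine Finset.sum_congr rfl fun l _ => ?_
  rw [Bm_eq, wint_comm S (M.b l)]
  ring

theorem real_kah {w : Fin S.N → Cm 2 → Matrix (Fin 2) (Fin 2) ℂ} (h : Kah S w) :
    Real2 S (fun i z => kf2 (w i z)) := fun i z hz u v =>
  Complex.conj_eq_iff_im.1 (kf_conj (h.posDef i z hz).1 u v)

theorem kv_eq [Subsingleton Γ] (M : Mark2 S n) {w : Fin S.N → Cm 2 → Matrix (Fin 2) (Fin 2) ℂ}
    (h : Kah S w) : (fun k => ((kv M w k : ℝ) : ℂ)) = M.cl (fun i z => kf2 (w i z)) := by
  have h1 := H624.TS.cl2_kah h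
  have h2 : M.cl (fun i z => C2 (kf2 (w i z))) = M.cl (fun i z => kf2 (w i z)) :=
    cl_congr M (cl2_conj h1) h1 fun i z hz => by
      ext u v
      exact kf_conj (h.posDef i z hz).1 u v
  rw [cl_conj M h1] at h2
  funext k
  have h3 : conj (M.cl (fun i z => kf2 (w i z)) k) = M.cl (fun i z => kf2 (w i z)) k :=
    congrFun h2 k
  exact Complex.conj_eq_iff_re.1 h3

theorem int_zero (S : Sheets 2 E Γ) : S.int (fun _ _ => (0 : ℂ)) = 0 := by
  simp [Sheets.int]

/-- **Block D3.** -/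
theorem per (hSt : StokesStmt) (hH : HodgeIndexStmt) : PerStmt := by
  intro E Γ _ _ _ _ _ _ _ S w s n M hw hs hne huniq
  have hcs := H624.TS.cl2_hol hs
  have hcw := H624.TS.cl2_kah hw
  have hscont : ∀ i, ContinuousOn (s i) (ball 0 3) := fun i => (hs.hol i).continuousOn
  -- the square of the form
  have hpp : bil (Bm M) (M.cl fun i z => sf2 (s i z)) (star (M.cl fun i z => sf2 (s i z))) =
      4 * S.int fun i z => ((‖s i z‖ ^ 2 : ℝ) : ℂ) := by
    rw [← cl_conj M hcs, bil_cl hSt M hcs (cl2_conj hcs), ← int_mul]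
    unfold wint
    congr 1
    funext i z
    exact wd_sf_conj _
  have hppre : (bil (Bm M) (M.cl fun i z => sf2 (s i z))
      (star (M.cl fun i z => sf2 (s i z)))).re =
      4 * (S.int fun i z => ((‖s i z‖ ^ 2 : ℝ) : ℂ)).re := by
    rw [hpp, Complex.mul_re]
    simp
  have hpos : 0 < (S.int fun i z => ((‖s i z‖ ^ 2 : ℝ) : ℂ)).re := by
    refine int_pos S (D := fun i z => ‖s i z‖ ^ 2) (fun i => (hscont i).norm.pow 2)
      (fun i z _ => by positivity) (fun i j z hz z' hz' h hp => ?_) ?_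
    · obtain ⟨θ, t1, t2, t3⟩ := H624.TS.tr_ex S hz hz' h
      have h1 := hs.change i j z hz z' hz' θ t1 t2 t3
      have h2 : s i z ≠ 0 := fun h0 => by
        simp only [h0, norm_zero] at hp
        norm_num at hp
      have h3 : s j z' ≠ 0 := fun h0 => h2 (by rw [h1, h0, zero_mul])
      have h4 : 0 < ‖s j z'‖ := norm_pos_iff.2 h3
      positivity
    · obtain ⟨i, z, hz, h⟩ := hne
      have h4 : 0 < ‖s i z‖ := norm_pos_iff.2 h
      exact ⟨i, z, hz, by positivity⟩
  have hwpos : 0 < (bil (Bm M) (fun i => (kv M w i : ℂ)) (fun i => (kv M w i : ℂ))).re := by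
    rw [kv_eq M hw, bil_cl hSt M hcw hcw]
    have hdet : ∀ i, ∀ z ∈ ball (0 : Cm 2) 3, 0 < (w i z).det := fun i z hz =>
      (hw.posDef i z hz).det_pos
    have h1 : wint S (fun i z => kf2 (w i z)) (fun i z => kf2 (w i z)) =
        2 * S.int (fun i z => (((w i z).det.re : ℝ) : ℂ)) := by
      rw [← int_mul]
      refine int_congr S fun i z hz => ?_
      have h2 : (((w i z).det.re : ℝ) : ℂ) = (w i z).det := by
        have h3 := (Complex.pos_iff.1 (hdet i z hz)).2
        apply Complex.ext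
        · simp
        · simp [← h3]
      show wd (kf2 (w i z)) (kf2 (w i z)) = 2 * (((w i z).det.re : ℝ) : ℂ)
      rw [wd_kf, h2]
    have h2 : 0 < (S.int fun i z => (((w i z).det.re : ℝ) : ℂ)).re := by
      refine int_pos S (D := fun i z => (w i z).det.re) (fun i => ?_)
        (fun i z hz => (Complex.pos_iff.1 (hdet i z hz)).1.le)
        (fun i j z hz z' hz' h hp => (Complex.pos_iff.1 (hdet j z' hz')).1) ?_
      · have h3 : ContinuousOn (fun z => (w i z).det) (ball (0 : Cm 2) 3) := by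
          simp only [Matrix.det_fin_two]
          exact ((hw.smooth i 0 0).continuousOn.mul (hw.smooth i 1 1).continuousOn).sub
            ((hw.smooth i 0 1).continuousOn.mul (hw.smooth i 1 0).continuousOn)
        exact Complex.continuous_re.comp_continuousOn h3
      · obtain ⟨i, z, hz, -⟩ := hne
        exact ⟨i, z, hz, (Complex.pos_iff.1 (hdet i z hz)).1⟩
    rw [h1, Complex.mul_re]
    simpa using h2
  refine ⟨⟨?_, ?_, ?_, ?_, Or.inr hwpos, ?_⟩, hppre⟩
  · ext k l
    show Bm M l k = Bm M k l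
    simp only [Bm, Matrix.of_apply]
    rw [wint_comm]
  · rw [bil_cl hSt M hcs hcs, ← int_zero S]
    unfold wint
    congr 1
    funext i z
    exact wd_sf_sf _ _
  · rw [kv_eq M hw, bil_cl hSt M hcs hcw, ← int_zero S]
    unfold wint
    congr 1
    funext i z
    exact wd_sf_kf _ _
  · rw [hppre]
    positivity
  · -- negative definite on the orthogonal
    intro x hx hxp hxw
    have hcx := cl2_sum (fun k => ((x k : ℝ) : ℂ)) M.closed
    have hclx : M.cl (fun i z => ∑ k, ((x k : ℝ) : ℂ) • M.b k i z) = fun k => ((x k : ℝ) : ℂ) :=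
      cl_eq M hcx (exact_congr exact_zero fun i z _ => by
        ext u v
        simp only [sub_apply, sub_self, zero_apply])
    have hrx : Real2 S (fun i z => ∑ k, ((x k : ℝ) : ℂ) • M.b k i z) := by
      intro i z hz u v
      simp only [sum_apply, smul_apply, smul_eq_mul]
      rw [Complex.im_sum]
      refine Finset.sum_eq_zero fun k _ => ?_
      rw [Complex.mul_im, M.real k i z hz u v]
      simp
    have h1 : wint S (fun i z => ∑ k, ((x k : ℝ) : ℂ) • M.b k i z) (fun i z => kf2 (w i z)) = 0 := by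
      rw [← bil_cl hSt M hcx hcw, hclx, ← kv_eq M hw]
      exact hxw
    have h2 : ∀ s', HolD S s' →
        wint S (fun i z => ∑ k, ((x k : ℝ) : ℂ) • M.b k i z) (fun i z => sf2 (s' i z)) = 0 := by
      intro s' hs'
      obtain ⟨c, hc⟩ := huniq s' hs'
      have h3 : ∀ i, ∀ z ∈ ball (0 : Cm 2) 3, sf2 (s' i z) = c • sf2 (s i z) := by
        intro i z hz
        ext u v
        show s' i z * (u 0 * v 1 - u 1 * v 0) = c * (s i z * (u 0 * v 1 - u 1 * v 0))
        rw [hc i z hz]
        ring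
      rw [wint_congr' (α'' := fun i z => c • sf2 (s i z)) h3, wint_comm, wint_smul, wint_comm,
        ← bil_cl hSt M hcx hcs, hclx, hxp, mul_zero]
    obtain ⟨h3, h4⟩ := hH E Γ S w _ hw hcx hrx h1 h2
    have h5 : bil (Bm M) (fun i => (x i : ℂ)) (fun i => (x i : ℂ)) =
        wint S (fun i z => ∑ k, ((x k : ℝ) : ℂ) • M.b k i z)
          (fun i z => ∑ k, ((x k : ℝ) : ℂ) • M.b k i z) := by
      rw [← bil_cl hSt M hcx hcx, hclx]
    rw [h5]
    refine lt_of_le_of_ne h3 fun h6 => hx ?_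
    have h7 := M.indep _ (h4 h6)
    funext k
    have h8 : ((x k : ℝ) : ℂ) = 0 := congrFun h7 k
    show x k = 0
    exact_mod_cast h8

end main

end Vale.Agent.P281.H594.TS
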