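import Vale.Agent.P281.H594.TS.Gr1

/-!
# P281, T-S, block D2 (helper594): holomorphic dependence of the form on the parameter
-/

open Set Filter Metric
open scoped Topology

noncomputable section

namespace Vale.Agent.P281.H594.TS

open Vale.Agent.P281.H64.TK Vale.Agent.P281.H64.TK.TS Vale.Agent.P281.H603.K
open Vale.Agent.P272.K (Cm)

variable {p d : ℕ} {E Γ : Type} [TopologicalSpace E] [Group Γ] [MulAction Γ E]

/-- Forms of top degree, for all the parameters in `T'`. -/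
structure DatL (𝓕 : Fam p d E Γ) (T' : Set (Cm p)) (u : Cm p → Fin 𝓕.N → Cm d → ℂ) : Prop where
  sub : T' ⊆ 𝓕.T
  isOpen : IsOpen T'
  hol : ∀ t ∈ T', ∀ i, DifferentiableOn ℂ (u t i) (ball 0 3)
  rel : ∀ t ∈ T', ∀ i j, ∀ z ∈ ball (0 : Cm d) 3, ∀ w ∈ ball (0 : Cm d) 3,
    𝓕.σ i t z = 𝓕.σ j t w → u t i z = u t j w * jd (𝓕.σ i t) (𝓕.σ j t) z

section
variable {𝓕 : Fam p d E Γ} {T' : Set (Cm p)} {u : Cm p → Fin 𝓕.N → Cm d → ℂ}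

/-- The sequence for the continuity. -/
theorem DatL.seq (D : DatL 𝓕 T' u) {t₁ : Cm p} (ht₁ : t₁ ∈ T') :
    SeqL 𝓕 (𝓝 t₁) id t₁ u (fun _ _ _ _ => 0) where
  lim := tendsto_id
  hol := by
    filter_upwards [D.isOpen.mem_nhds ht₁] with t ht using D.hol t ht
  rel := by
    intro i j z hz w hw hγ U hU z' w' hz' hw' hr
    have h1 : ∀ᶠ t in (U : Filter (Cm p)), t ∈ T' := hU (D.isOpen.mem_nhds ht₁)
    have h2 : ∀ᶠ t in (U : Filter (Cm p)), z' t ∈ ball (0 : Cm d) 3 :=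
      hz'.eventually (isOpen_ball.mem_nhds hz)
    have h3 : ∀ᶠ t in (U : Filter (Cm p)), w' t ∈ ball (0 : Cm d) 3 :=
      hw'.eventually (isOpen_ball.mem_nhds hw)
    refine tendsto_const_nhds.congr' ?_
    filter_upwards [h1, h2, h3, hr] with t k1 k2 k3 k4
    have k5 := D.rel t k1 i j _ k2 _ k3 k4
    simp only [id] at k4 ⊢
    linear_combination - k5

/-- The difference quotients. -/
theorem DatL.exists_seq (D : DatL 𝓕 T' u) {t₁ : Cm p} (ht₁ : t₁ ∈ T') (x : Cm p) :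
    ∃ B : Fin 𝓕.N → Fin 𝓕.N → Cm d → Cm d → ℂ,
      SeqL 𝓕 (𝓝[≠] (0 : ℂ)) (fun s => t₁ + s • x) t₁
        (fun s i z => s⁻¹ * (u (t₁ + s • x) i z - u t₁ i z)) B := by
  have hlim0 : Tendsto (fun s : ℂ => t₁ + s • x) (𝓝 0) (𝓝 t₁) := by
    have : Continuous fun s : ℂ => t₁ + s • x := by fun_prop
    simpa using this.tendsto 0
  have hlim : Tendsto (fun s : ℂ => t₁ + s • x) (𝓝[≠] (0 : ℂ)) (𝓝 t₁) :=
    hlim0.mono_left nhdsWithin_le_nhds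
  have hT : ∀ᶠ s : ℂ in 𝓝[≠] (0 : ℂ), t₁ + s • x ∈ T' :=
    hlim.eventually (D.isOpen.mem_nhds ht₁)
  have hex : ∀ (i j : Fin 𝓕.N) (z w : Cm d), ∃ β : ℂ, z ∈ ball (0 : Cm d) 3 →
      w ∈ ball (0 : Cm d) 3 → 𝓕.σ i t₁ z = 𝓕.σ j t₁ w →
      ∀ U : Ultrafilter ℂ, (U : Filter ℂ) ≤ 𝓝[≠] (0 : ℂ) →
      ∀ z' w' : ℂ → Cm d, Tendsto z' U (𝓝 z) → Tendsto w' U (𝓝 w) →
        (∀ᶠ s in (U : Filter ℂ),
          𝓕.σ i (t₁ + s • x) (z' s) = 𝓕.σ j (t₁ + s • x) (w' s)) →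
          Tendsto (fun s => s⁻¹ * (u (t₁ + s • x) i (z' s) - u t₁ i (z' s)) -
            s⁻¹ * (u (t₁ + s • x) j (w' s) - u t₁ j (w' s)) *
              jd (𝓕.σ i (t₁ + s • x)) (𝓕.σ j (t₁ + s • x)) (z' s)) U (𝓝 β) := by
    intro i j z w
    by_cases hz : z ∈ ball (0 : Cm d) 3
    swap
    · exact ⟨0, fun h => absurd h hz⟩
    by_cases hw : w ∈ ball (0 : Cm d) 3
    swap
    · exact ⟨0, fun _ h => absurd h hw⟩
    by_cases hγ : 𝓕.σ i t₁ z = 𝓕.σ j t₁ w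
    swap
    · exact ⟨0, fun _ _ h => absurd h hγ⟩
    obtain ⟨hθ, hJ, hθw, hθr⟩ := tm_fam 𝓕 (D.sub ht₁) hz hw hγ
    set θ : Cm p × Cm d → Cm d := fun q => tm (𝓕.σ i q.1) (𝓕.σ j q.1) q.2 with hθdef
    set J : Cm p × Cm d → ℂ := fun q => jd (𝓕.σ i q.1) (𝓕.σ j q.1) q.2 with hJdef
    have hua : AnalyticAt ℂ (u t₁ j) w :=
      MF.analyticAt_of_differentiableOn isOpen_ball (D.hol t₁ ht₁ j) hw
    have hG : AnalyticAt ℂ (fun y : Cm p × Cm d => u t₁ j (θ y) * J y) (t₁, z) := by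
      have hua' : AnalyticAt ℂ (u t₁ j) (θ (t₁, z)) := by
        show AnalyticAt ℂ (u t₁ j) (tm (𝓕.σ i t₁) (𝓕.σ j t₁) z)
        rwa [hθw]
      exact (hua'.comp hθ).mul hJ
    set G : Cm p × Cm d → ℂ := fun y => u t₁ j (θ y) * J y with hGdef
    have hGs := hG.hasStrictFDerivAt
    refine ⟨fderiv ℂ G (t₁, z) (x, 0), fun _ _ _ U hU z' w' hz' hw' hr => ?_⟩
    have hU0 : (U : Filter ℂ) ≤ 𝓝 0 := hU.trans nhdsWithin_le_nhds
    have hx : Tendsto (fun s : ℂ => (t₁ + s • x, z' s)) U (𝓝 (t₁, z)) :=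
      (hlim0.mono_left hU0).prodMk_nhds hz'
    have hy : Tendsto (fun s : ℂ => (t₁, z' s)) U (𝓝 (t₁, z)) :=
      tendsto_const_nhds.prodMk_nhds hz'
    have hne : ∀ᶠ s : ℂ in (U : Filter ℂ), s ≠ 0 := hU self_mem_nhdsWithin
    have h2 : ∀ᶠ t in (U : Filter ℂ), z' t ∈ ball (0 : Cm d) 3 :=
      hz'.eventually (isOpen_ball.mem_nhds hz)
    have h3 : ∀ᶠ t in (U : Filter ℂ), w' t ∈ ball (0 : Cm d) 3 :=
      hw'.eventually (isOpen_ball.mem_nhds hw)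
    -- the strict derivative
    have key : Tendsto (fun s : ℂ => s⁻¹ * (G (t₁ + s • x, z' s) - G (t₁, z' s))) U
        (𝓝 (fderiv ℂ G (t₁, z) (x, 0))) := by
      have h4 : (fun s : ℂ => G (t₁ + s • x, z' s) - G (t₁, z' s) -
          fderiv ℂ G (t₁, z) ((t₁ + s • x, z' s) - (t₁, z' s))) =o[(U : Filter ℂ)]
          fun s : ℂ => ((t₁ + s • x, z' s) - (t₁, z' s) : Cm p × Cm d) :=
        hGs.isLittleO.comp_tendsto (hx.prodMk_nhds hy)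
      have h5 : ∀ s : ℂ, ((t₁ + s • x, z' s) - (t₁, z' s) : Cm p × Cm d) =
          s • (x, (0 : Cm d)) := by
        intro s
        ext <;> simp
      have h6 : (fun s : ℂ => ((t₁ + s • x, z' s) - (t₁, z' s) : Cm p × Cm d))
          =O[(U : Filter ℂ)] fun s : ℂ => s := by
        refine Asymptotics.IsBigO.of_bound ‖(x, (0 : Cm d))‖ (Eventually.of_forall fun s => ?_)
        rw [h5, norm_smul, mul_comm]
      have h7 := (h4.trans_isBigO h6).tendsto_inv_smul_nhds_zero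
      have h8 := h7.add_const (fderiv ℂ G (t₁, z) (x, 0))
      rw [zero_add] at h8
      refine h8.congr' ?_
      filter_upwards [hne] with s hs
      rw [h5, map_smul, smul_eq_mul, smul_eq_mul]
      field_simp
      ring
    refine key.congr' ?_
    filter_upwards [hU hT, h2, h3, hr, hx.eventually hθr, hy.eventually hθr] with s k1 k2 k3 k4 k5
      k6
    have k7 : tm (𝓕.σ i (t₁ + s • x)) (𝓕.σ j (t₁ + s • x)) (z' s) = w' s :=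
      tm_eq (𝓕.at _ (D.sub k1)) k3 k4
    have k8 := D.rel _ k1 i j _ k2 _ k3 k4
    have k9 := D.rel t₁ ht₁ i j _ k2 _ k6.2.2.1 k6.2.2.2
    simp only [hGdef, hθdef, hJdef]
    rw [k7]
    linear_combination (s⁻¹) * k9 - (s⁻¹) * k8
  choose B hB using hex
  refine ⟨B, hlim, ?_, ?_⟩
  · filter_upwards [hT] with s hs i
    exact ((D.hol _ hs i).sub (D.hol t₁ ht₁ i)).const_mul _
  · intro i j z hz w hw hγ U hU z' w' hz' hw' hr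
    exact hB i j z w hz hw hγ U hU z' w' hz' hw' hr

end

section
variable [Subsingleton Γ] [T2Space E] [ContinuousConstSMul Γ E]
variable {𝓕 : Fam p d E Γ} {T' : Set (Cm p)} {u : Cm p → Fin 𝓕.N → Cm d → ℂ}

theorem DatL.continuousAt (D : DatL 𝓕 T' u) {i₀ : Fin 𝓕.N} {z₀ : Cm d}
    (hz₀ : z₀ ∈ ball (0 : Cm d) 2) (hG : ∀ t (ht : t ∈ T'), Det (𝓕.at t (D.sub ht)) i₀ z₀)
    {a₀ : ℂ} (h0 : ∀ t ∈ T', u t i₀ z₀ = a₀) {t₁ : Cm p} (ht₁ : t₁ ∈ T') :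
    ∀ i, ∀ z ∈ ball (0 : Cm d) 2,
      ContinuousAt (fun x : Cm p × Cm d => u x.1 i x.2) (t₁, z) := by
  have hT : ∀ᶠ t in 𝓝 t₁, t ∈ T' := D.isOpen.mem_nhds ht₁
  obtain ⟨v, h2⟩ := convL 𝓕 (D.sub ht₁) (D.seq ht₁) hz₀ (hG t₁ ht₁)
    (a₀ := a₀) (tendsto_const_nhds.congr' (hT.mono fun t ht => (h0 t ht).symm))
  intro i z hz
  have h4 := h2 i z hz
  rw [← nhds_prod_eq] at h4
  exact continuousAt_of_tendsto_nhds h4

theorem DatL.differentiableAt (D : DatL 𝓕 T' u) {i₀ : Fin 𝓕.N} {z₀ : Cm d}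
    (hz₀ : z₀ ∈ ball (0 : Cm d) 2) (hG : ∀ t (ht : t ∈ T'), Det (𝓕.at t (D.sub ht)) i₀ z₀)
    {a₀ : ℂ} (h0 : ∀ t ∈ T', u t i₀ z₀ = a₀) {t₁ : Cm p} (ht₁ : t₁ ∈ T') (x : Cm p) :
    ∀ i, ∀ z ∈ ball (0 : Cm d) 2,
      DifferentiableAt ℂ (fun s : ℂ => u (t₁ + s • x) i z) 0 := by
  obtain ⟨B, hB⟩ := D.exists_seq ht₁ x
  have hT : ∀ᶠ s : ℂ in 𝓝[≠] (0 : ℂ), t₁ + s • x ∈ T' :=
    hB.lim.eventually (D.isOpen.mem_nhds ht₁)
  obtain ⟨v, h2⟩ := convL 𝓕 (D.sub ht₁) hB hz₀ (hG t₁ ht₁)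
    (a₀ := 0) (tendsto_const_nhds.congr' (hT.mono fun s hs => by
      beta_reduce; rw [h0 _ hs, h0 t₁ ht₁]; ring))
  intro i z hz
  have h4 : Tendsto (fun s : ℂ => s⁻¹ * (u (t₁ + s • x) i z - u t₁ i z)) (𝓝[≠] 0)
      (𝓝 (v i z)) :=
    tendsto_of_prod (f := fun s z => s⁻¹ * (u (t₁ + s • x) i z - u t₁ i z)) (h2 i z hz)
      tendsto_const_nhds
  have h5 : HasDerivAt (fun s : ℂ => u (t₁ + s • x) i z) (v i z) 0 := by
    rw [hasDerivAt_iff_tendsto_slope_zero]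
    simpa using h4
  exact h5.differentiableAt

/-- **Analyticity in the parameter.** -/
theorem DatL.analytic (D : DatL 𝓕 T' u) {i₀ : Fin 𝓕.N} {z₀ : Cm d}
    (hz₀ : z₀ ∈ ball (0 : Cm d) 2) (hG : ∀ t (ht : t ∈ T'), Det (𝓕.at t (D.sub ht)) i₀ z₀)
    {a₀ : ℂ} (h0 : ∀ t ∈ T', u t i₀ z₀ = a₀) :
    ∀ i, ∀ t ∈ T', ∀ z ∈ ball (0 : Cm d) 3,
      AnalyticAt ℂ (fun x : Cm p × Cm d => u x.1 i x.2) (t, z) := by
  have hcont := fun t (ht : t ∈ T') => D.continuousAt hz₀ hG h0 ht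
  have hdiff := fun t (ht : t ∈ T') => D.differentiableAt hz₀ hG h0 ht
  have h2 : ∀ i, ∀ t ∈ T', ∀ z ∈ ball (0 : Cm d) 2,
      AnalyticAt ℂ (fun x : Cm p × Cm d => u x.1 i x.2) (t, z) := by
    intro i t ht z hz
    have h3 : DifferentiableOn ℂ (fun x : Cm p × Cm d => u x.1 i x.2) (T' ×ˢ ball (0 : Cm d) 2) := by
      refine osgood_dir ((Pi.basisFun ℂ (Fin p)).prod (Pi.basisFun ℂ (Fin d)))
        (D.isOpen.prod isOpen_ball) ?_ ?_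
      · rintro ⟨t, z⟩ ⟨ht, hz⟩
        exact hcont t ht i z hz
      · rintro ⟨t, z⟩ ⟨ht, hz⟩ (k | k)
        · have h4 := (hdiff t ht (Pi.basisFun ℂ (Fin p) k)) i z hz
          simpa using h4
        · have h4 : DifferentiableAt ℂ (u t i) z :=
            (D.hol t ht i).differentiableAt
              (isOpen_ball.mem_nhds (ball_subset_ball (by norm_num) hz))
          have h5 : DifferentiableAt ℂ (fun s : ℂ => z + s • (Pi.single k 1 : Cm d)) 0 := by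
            fun_prop
          have h6 : DifferentiableAt ℂ (u t i) ((fun s : ℂ => z + s • (Pi.single k 1 : Cm d)) 0) := by
            simpa using h4
          have h7 := DifferentiableAt.comp (0 : ℂ) h6 h5
          simpa [Function.comp_def] using h7
    exact MF.analyticAt_of_differentiableOn (D.isOpen.prod isOpen_ball) h3 ⟨ht, hz⟩
  intro i t ht z hz
  obtain ⟨j, w, hw, he⟩ := cover1 (𝓕.at t (D.sub ht)) (𝓕.σ i t z)
  have hw3 : w ∈ ball (0 : Cm d) 3 := by rw [mem_ball_zero_iff]; linarith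
  have hw2 : w ∈ ball (0 : Cm d) 2 := by rw [mem_ball_zero_iff]; linarith
  obtain ⟨k1, k1', k2, k3⟩ := tm_fam 𝓕 (D.sub ht) (i := i) (j := j) hz hw3 he.symm
  have hT : ∀ᶠ x : Cm p × Cm d in 𝓝 (t, z), x.1 ∈ T' :=
    (continuous_fst.tendsto (t, z)).eventually (D.isOpen.mem_nhds ht)
  have h3 : (fun x : Cm p × Cm d => u x.1 i x.2) =ᶠ[𝓝 (t, z)]
      fun x => u x.1 j (tm (𝓕.σ i x.1) (𝓕.σ j x.1) x.2) * jd (𝓕.σ i x.1) (𝓕.σ j x.1) x.2 := by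
    filter_upwards [hT, k3] with x k4 k5
    exact D.rel x.1 k4 i j _ k5.2.1 _ k5.2.2.1 k5.2.2.2
  refine AnalyticAt.congr ?_ h3.symm
  have h4 : AnalyticAt ℂ (fun x : Cm p × Cm d => (x.1, tm (𝓕.σ i x.1) (𝓕.σ j x.1) x.2)) (t, z) :=
    analyticAt_fst.prod k1
  have h5 : AnalyticAt ℂ (fun x : Cm p × Cm d => u x.1 j (tm (𝓕.σ i x.1) (𝓕.σ j x.1) x.2))
      (t, z) := by
    have h6 : AnalyticAt ℂ (fun x : Cm p × Cm d => u x.1 j x.2)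
        (t, tm (𝓕.σ i t) (𝓕.σ j t) z) := by
      rw [k2]
      exact h2 j t ht w hw2
    exact AnalyticAt.comp (g := fun x : Cm p × Cm d => u x.1 j x.2)
      (f := fun x : Cm p × Cm d => (x.1, tm (𝓕.σ i x.1) (𝓕.σ j x.1) x.2)) h6 h4
  exact h5.mul k1'

/-- If the form number `t₁` is not zero at the point `z₀` of the sheet `i₀`, the same is true for the
neighbouring parameters. -/
theorem ne_open (𝓕 : Fam p d E Γ) {i₀ : Fin 𝓕.N} {z₀ : Cm d} (hz₀ : z₀ ∈ ball (0 : Cm d) 2)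
    (h1 : ∀ t (ht : t ∈ 𝓕.T), ∃ s, HolD (𝓕.at t ht) s ∧
      ∃ i, ∃ z ∈ ball (0 : Cm d) 3, s i z ≠ 0)
    {t₁ : Cm p} (ht₁ : t₁ ∈ 𝓕.T) (hG : Det (𝓕.at t₁ ht₁) i₀ z₀) :
    ∀ᶠ t in 𝓝 t₁, ∃ (ht : t ∈ 𝓕.T) (s : Fin 𝓕.N → Cm d → ℂ), HolD (𝓕.at t ht) s ∧
      s i₀ z₀ ≠ 0 := by
  by_contra hcon
  have hT : ∀ᶠ t in 𝓝 t₁, t ∈ 𝓕.T := 𝓕.isOpen.mem_nhds ht₁
  set A : Set (Cm p) := {t | ∃ ht : t ∈ 𝓕.T, ∀ s, HolD (𝓕.at t ht) s → s i₀ z₀ = 0} with hA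
  have hfr : ∃ᶠ t in 𝓝 t₁, t ∈ A := by
    rw [Filter.Frequently]
    intro h
    refine hcon ?_
    filter_upwards [hT, h] with t k1 k2
    refine ⟨k1, ?_⟩
    by_contra k3
    push Not at k3
    exact k2 ⟨k1, k3⟩
  -- `t₁` is not in `A`
  have htA : t₁ ∉ A := by
    rintro ⟨ht, h⟩
    obtain ⟨s, hs, i, z, hz, hne⟩ := h1 t₁ ht₁
    exact hne (hG s hs (h s hs) i z hz)
  set l : Filter (Cm p) := 𝓝 t₁ ⊓ 𝓟 A with hl
  have hlne : l.NeBot := frequently_mem_iff_neBot.1 hfr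
  have hlA : ∀ᶠ t in l, t ∈ A := mem_inf_of_right (mem_principal_self A)
  -- the forms, scaled to be large
  have hex : ∀ t, ∃ u : Fin 𝓕.N → Cm d → ℂ, ∀ ht : t ∈ 𝓕.T, t ≠ t₁ →
      HolD (𝓕.at t ht) u ∧ ∃ i, ∃ z ∈ closedBall (0 : Cm d) 2, ‖u i z‖ = ‖t - t₁‖⁻¹ := by
    intro t
    by_cases ht : t ∈ 𝓕.T
    swap
    · exact ⟨fun _ _ => 0, fun h => absurd h ht⟩
    obtain ⟨s, hs, i, z, hz, hne⟩ := h1 t ht
    obtain ⟨j, w, hw, he⟩ := cover1 (𝓕.at t ht) (𝓕.σ i t z)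
    have hw3 : w ∈ ball (0 : Cm d) 3 := Sh.mem3 hw
    have h2 : s j w ≠ 0 := by
      intro h0
      have h3 := HolD.rel hs (i := i) (j := j) hz hw3 he.symm
      rw [h0, zero_mul] at h3
      exact hne h3
    refine ⟨fun k x => ((‖t - t₁‖⁻¹ : ℝ) : ℂ) * (s j w)⁻¹ * s k x, fun _ _ =>
      ⟨⟨fun k => (hs.hol k).const_mul _, fun k k' x hx x' hx' θ hθ hθx hev => ?_⟩,
      j, w, ?_, ?_⟩⟩
    · rw [hs.change k k' x hx x' hx' θ hθ hθx hev]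
      ring
    · rw [mem_closedBall_zero_iff]
      linarith
    · beta_reduce
      rw [mul_assoc, inv_mul_cancel₀ h2, mul_one, Complex.norm_real,
        Real.norm_of_nonneg (by positivity)]
  choose u hu using hex
  set U : Ultrafilter (Cm p) := Ultrafilter.of l with hUdef
  have hU : (U : Filter (Cm p)) ≤ l := Ultrafilter.of_le l
  have hUt : (U : Filter (Cm p)) ≤ 𝓝 t₁ := hU.trans inf_le_left
  have hUA : ∀ᶠ t in (U : Filter (Cm p)), t ∈ A := hU hlA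
  have hgood : ∀ᶠ t in (U : Filter (Cm p)), ∃ ht : t ∈ 𝓕.T, HolD (𝓕.at t ht) (u t) ∧
      (∃ i, ∃ z ∈ closedBall (0 : Cm d) 2, ‖u t i z‖ = ‖t - t₁‖⁻¹) ∧ u t i₀ z₀ = 0 := by
    filter_upwards [hUA] with t ht
    obtain ⟨k1, k2⟩ := ht
    have hne : t ≠ t₁ := fun h => htA (h ▸ ⟨k1, k2⟩)
    exact ⟨k1, (hu t k1 hne).1, (hu t k1 hne).2, k2 _ (hu t k1 hne).1⟩
  have Hs : SeqL 𝓕 (U : Filter (Cm p)) id t₁ u (fun _ _ _ _ => 0) := by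
    refine ⟨hUt, ?_, ?_⟩
    · filter_upwards [hgood] with t ht using ht.2.1.hol
    · intro i j z hz w hw hγ V hV z' w' hz' hw' hr
      have h2 : ∀ᶠ t in (V : Filter (Cm p)), z' t ∈ ball (0 : Cm d) 3 :=
        hz'.eventually (isOpen_ball.mem_nhds hz)
      have h3 : ∀ᶠ t in (V : Filter (Cm p)), w' t ∈ ball (0 : Cm d) 3 :=
        hw'.eventually (isOpen_ball.mem_nhds hw)
      refine tendsto_const_nhds.congr' ?_
      filter_upwards [hV hgood, h2, h3, hr] with t k1 k2 k3 k4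
      have k5 := HolD.rel k1.2.1 (i := i) (j := j) k2 k3 k4
      simp only [id] at k4 ⊢
      have k6 : u t i (z' t) = u t j (w' t) * jd (𝓕.σ i t) (𝓕.σ j t) (z' t) := k5
      linear_combination - k6
  obtain ⟨C, hC⟩ := bddL 𝓕 U ht₁ Hs hz₀ hG (C₀ := 0) (by
    filter_upwards [hgood] with t ht
    rw [ht.2.2.2, norm_zero])
  have hbig : ∀ᶠ t in (U : Filter (Cm p)), ‖t - t₁‖ * (|C| + 1) < 1 := by
    have h4 : Tendsto (fun t : Cm p => ‖t - t₁‖ * (|C| + 1)) (𝓝 t₁) (𝓝 (‖t₁ - t₁‖ * (|C| + 1))) :=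
      (by fun_prop : Continuous fun t : Cm p => ‖t - t₁‖ * (|C| + 1)).tendsto t₁
    rw [sub_self, norm_zero, zero_mul] at h4
    exact hUt (h4.eventually (gt_mem_nhds one_pos))
  obtain ⟨t, ⟨h4, h5⟩, h6, h7⟩ := ((hC.and hbig).and (hgood.and hUA)).exists
  obtain ⟨-, -, ⟨i, z, hz, h8⟩, -⟩ := h6
  have h9 := h4 i z hz
  rw [h8] at h9
  have h10 : 0 < ‖t - t₁‖ := norm_pos_iff.2 (sub_ne_zero.2 fun h => htA (h ▸ h7))
  have h11 : 1 ≤ C * ‖t - t₁‖ := by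
    rw [← div_le_iff₀ h10, one_div]
    exact h9
  have h12 : C ≤ |C| := le_abs_self C
  nlinarith

/-- **Block D2** (Grauert, `h⁰ = 1`). -/
theorem grauert_core (𝓕 : Fam p d E Γ) (h1 : ∀ t (ht : t ∈ 𝓕.T), H20One (𝓕.at t ht)) {t₀ : Cm p}
    (ht₀ : t₀ ∈ 𝓕.T) : ∃ (T' : Set (Cm p)) (s : Fin 𝓕.N → Cm p × Cm d → ℂ) (i₀ : Fin 𝓕.N)
      (z₀ : Cm d), T' ⊆ 𝓕.T ∧ IsOpen T' ∧ t₀ ∈ T' ∧ z₀ ∈ ball (0 : Cm d) 3 ∧
      (∀ i, ∀ t ∈ T', ∀ z ∈ ball (0 : Cm d) 3, AnalyticAt ℂ (s i) (t, z)) ∧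
      (∀ t (ht : t ∈ 𝓕.T), t ∈ T' → HolD (𝓕.at t ht) (fun i z => s i (t, z))) ∧
      ∀ t ∈ T', s i₀ (t, z₀) = 1 := by
  -- the point
  obtain ⟨s₀, hs₀, ⟨i, z, hz, hne⟩, -⟩ := h1 t₀ ht₀
  obtain ⟨i₀, z₀, hz₀1, he⟩ := cover1 (𝓕.at t₀ ht₀) (𝓕.σ i t₀ z)
  have hz₀3 : z₀ ∈ ball (0 : Cm d) 3 := Sh.mem3 hz₀1
  have hz₀ : z₀ ∈ ball (0 : Cm d) 2 := by rw [mem_ball_zero_iff]; linarith
  have h2 : s₀ i₀ z₀ ≠ 0 := by
    intro h0
    have h3 := HolD.rel hs₀ (i := i) (j := i₀) hz hz₀3 he.symm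
    rw [h0, zero_mul] at h3
    exact hne h3
  set T' : Set (Cm p) := {t | ∃ (ht : t ∈ 𝓕.T) (s : Fin 𝓕.N → Cm d → ℂ), HolD (𝓕.at t ht) s ∧
    s i₀ z₀ ≠ 0} with hT'def
  have hT' : T' ⊆ 𝓕.T := fun t ht => ht.1
  have hdet : ∀ t (ht : t ∈ T'), Det (𝓕.at t (hT' ht)) i₀ z₀ := by
    rintro t ht s hs hs0 i z hz
    obtain ⟨g, hg, -, huniq⟩ := h1 t (hT' ht)
    obtain ⟨ht', s', hs', hne'⟩ := ht
    obtain ⟨c, hc⟩ := huniq s hs
    obtain ⟨c', hc'⟩ := huniq s' hs'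
    have h4 : g i₀ z₀ ≠ 0 := by
      intro h5
      exact hne' (by rw [hc' i₀ z₀ hz₀3, h5, mul_zero])
    have h5 : c = 0 := by
      have h6 := hc i₀ z₀ hz₀3
      rw [hs0] at h6
      exact (mul_eq_zero.1 h6.symm).resolve_right h4
    rw [hc i z hz, h5, zero_mul]
  have hopen : IsOpen T' := by
    rw [isOpen_iff_mem_nhds]
    intro t ht
    exact ne_open 𝓕 hz₀ (fun t ht => by
      obtain ⟨s, hs, hne, -⟩ := h1 t ht
      exact ⟨s, hs, hne⟩) (hT' ht) (hdet t ht)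
  have h₀ : t₀ ∈ T' := ⟨ht₀, s₀, hs₀, h2⟩
  have hex : ∀ t, ∃ u : Fin 𝓕.N → Cm d → ℂ, ∀ ht : t ∈ T',
      HolD (𝓕.at t (hT' ht)) u ∧ u i₀ z₀ = 1 := by
    intro t
    by_cases ht : t ∈ T'
    swap
    · exact ⟨fun _ _ => 0, fun h => absurd h ht⟩
    have ht' := ht
    obtain ⟨_, s, hs, hne⟩ := ht'
    refine ⟨fun k x => (s i₀ z₀)⁻¹ * s k x, fun _ => ⟨⟨fun k => (hs.hol k).const_mul _,
      fun k k' x hx x' hx' θ hθ hθx hev => ?_⟩, inv_mul_cancel₀ hne⟩⟩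
    rw [hs.change k k' x hx x' hx' θ hθ hθx hev]
    ring
  choose u hu using hex
  have hdat : DatL 𝓕 T' u := by
    refine ⟨hT', hopen, fun t ht => (hu t ht).1.hol, fun t ht i j z hz w hw h => ?_⟩
    exact HolD.rel (hu t ht).1 (i := i) (j := j) hz hw h
  have hana := hdat.analytic hz₀ hdet (a₀ := 1) (fun t ht => (hu t ht).2)
  refine ⟨T', fun i q => u q.1 i q.2, i₀, z₀, hT', hopen, h₀, hz₀3, hana, fun t ht htT => ?_,
    fun t ht => (hu t ht).2⟩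
  exact (hu t htT).1

end

end Vale.Agent.P281.H594.TS
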