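import Vale.Agent.P281.H64.TS.Defs
import Vale.Agent.P281.H603.K.Dep2

/-!
# P281, T-S, block D2 (helper594): transition maps and their jacobians
-/

open Set Filter Metric
open scoped Topology

noncomputable section

namespace Vale.Agent.P281.H594.TS

open Vale.Agent.P281.H64.TK Vale.Agent.P281.H64.TK.TS Vale.Agent.P281.H603.K
open Vale.Agent.P272.K (Cm)

section lin
variable {d : ℕ}

theorem jac_comp {θ η : Cm d → Cm d} {z w : Cm d} (hw : θ z = w) (hη : DifferentiableAt ℂ η w)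
    (hθ : DifferentiableAt ℂ θ z) : jac (fun u => η (θ u)) z = jac η w * jac θ z := by
  subst hw
  have h1 : fderiv ℂ (fun u => η (θ u)) z = (fderiv ℂ η (θ z)).comp (fderiv ℂ θ z) :=
    (hη.hasFDerivAt.comp z hθ.hasFDerivAt).fderiv
  have h2 : ∀ (f : Cm d → Cm d) (x : Cm d), jac f x =
      LinearMap.toMatrix' (fderiv ℂ f x : Cm d →ₗ[ℂ] Cm d) := by
    intro f x
    rfl
  rw [h2, h2, h2, ← LinearMap.toMatrix'_comp, h1]
  rfl

theorem jac_id (z : Cm d) : jac (fun u : Cm d => u) z = 1 := by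
  ext i j
  simp only [jac, Matrix.of_apply, fderiv_fun_id, ContinuousLinearMap.coe_id', id_eq,
    Matrix.one_apply, Pi.single_apply]

theorem jac_congr {θ η : Cm d → Cm d} {z : Cm d} (h : θ =ᶠ[𝓝 z] η) : jac θ z = jac η z := by
  unfold jac
  rw [h.fderiv_eq]

theorem det_analyticAt {X : Type} [NormedAddCommGroup X] [NormedSpace ℂ X]
    {M : X → Matrix (Fin d) (Fin d) ℂ} {x : X} (h : ∀ i j, AnalyticAt ℂ (fun x => M x i j) x) :
    AnalyticAt ℂ (fun x => (M x).det) x := by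
  have h1 : (fun x => (M x).det) = fun x => ∑ σ : Equiv.Perm (Fin d),
      ((Equiv.Perm.sign σ : ℤ) : ℂ) * ∏ i, M x (σ i) i := by
    funext x
    rw [Matrix.det_apply']
  rw [h1]
  refine Finset.analyticAt_fun_sum _ fun σ _ => ?_
  exact analyticAt_const.mul (Finset.analyticAt_fun_prod _ fun i _ => h _ _)

/-- The Jacobian determinant in the fibre direction. -/
def jq {p : ℕ} (θ : Cm p × Cm d → Cm d) (q : Cm p × Cm d) : ℂ :=
  (Matrix.of fun l k => fderiv ℂ θ q (0, Pi.single k 1) l : Matrix (Fin d) (Fin d) ℂ).det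

theorem jq_analyticAt {p : ℕ} {θ : Cm p × Cm d → Cm d} {q : Cm p × Cm d} (h : AnalyticAt ℂ θ q) :
    AnalyticAt ℂ (jq θ) q := by
  refine det_analyticAt (M := fun q => Matrix.of fun l k =>
    fderiv ℂ θ q (0, Pi.single k 1) l) fun l k => ?_
  exact (((ContinuousLinearMap.proj (R := ℂ) (φ := fun _ : Fin d => ℂ) l).comp
    (ContinuousLinearMap.apply ℂ (Cm d) ((0, Pi.single k (1 : ℂ)) : Cm p × Cm d))).analyticAt
      _).comp h.fderiv

theorem jac_slice {p : ℕ} {θ : Cm p × Cm d → Cm d} {t : Cm p} {z : Cm d}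
    (h : AnalyticAt ℂ θ (t, z)) : (jac (fun u => θ (t, u)) z).det = jq θ (t, z) := by
  have h1 : HasFDerivAt (fun u => θ (t, u)) ((fderiv ℂ θ (t, z)).comp
      (ContinuousLinearMap.inr ℂ (Cm p) (Cm d))) z :=
    h.differentiableAt.hasFDerivAt.comp z (hasFDerivAt_prodMk_right t z)
  unfold jac jq
  rw [h1.fderiv]
  rfl

end lin

section sheets
variable {d : ℕ} {E Γ : Type} [TopologicalSpace E] [Group Γ] [MulAction Γ E]

/-- The transition map between the sheets `σ`, `τ`. -/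
def tm (σ τ : Cm d → E) (u : Cm d) : Cm d := Function.invFunOn τ (ball (0 : Cm d) 3) (σ u)

/-- The Jacobian determinant of the transition map. -/
def jd (σ τ : Cm d → E) (z : Cm d) : ℂ := (jac (tm σ τ) z).det

theorem tm_eq (S : Sheets d E Γ) {i j : Fin S.N} {u w : Cm d} (hw : w ∈ ball (0 : Cm d) 3)
    (h : S.σ i u = S.σ j w) : tm (S.σ i) (S.σ j) u = w := by
  unfold tm
  rw [h]
  exact (Sh.injOn S j).leftInvOn_invFunOn hw

theorem tm_of (S : Sheets d E Γ) {i j : Fin S.N} {z w : Cm d} (hw : w ∈ ball (0 : Cm d) 3)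
    {θ : Cm d → Cm d} (hc : ContinuousAt θ z) (hθ : θ z = w)
    (hev : ∀ᶠ u in 𝓝 z, S.σ i u = S.σ j (θ u)) : tm (S.σ i) (S.σ j) =ᶠ[𝓝 z] θ := by
  have h1 : ∀ᶠ u in 𝓝 z, θ u ∈ ball (0 : Cm d) 3 :=
    hc.eventually (isOpen_ball.mem_nhds (hθ.symm ▸ hw))
  filter_upwards [h1, hev] with u k1 k2
  exact tm_eq S k1 k2

theorem tm_nhds (S : Sheets d E Γ) {i j : Fin S.N} {z w : Cm d} (hz : z ∈ ball (0 : Cm d) 3)
    (hw : w ∈ ball (0 : Cm d) 3) (h : S.σ i z = S.σ j w) :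
    AnalyticAt ℂ (tm (S.σ i) (S.σ j)) z ∧ tm (S.σ i) (S.σ j) z = w ∧
      ∀ᶠ u in 𝓝 z, tm (S.σ i) (S.σ j) u ∈ ball (0 : Cm d) 3 ∧
        S.σ i u = S.σ j (tm (S.σ i) (S.σ j) u) := by
  obtain ⟨θ, h1, h2, h3⟩ := S.hol i j z hz w hw 1 (by rw [one_smul, h])
  simp only [one_smul] at h3
  have h4 := tm_of S hw h1.continuousAt h2 h3
  have h5 : ∀ᶠ u in 𝓝 z, θ u ∈ ball (0 : Cm d) 3 :=
    h1.continuousAt.eventually (isOpen_ball.mem_nhds (h2.symm ▸ hw))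
  refine ⟨h1.congr h4.symm, tm_eq S hw h, ?_⟩
  filter_upwards [h3, h4, h5] with u k1 k2 k3
  rw [k2]
  exact ⟨k3, k1⟩

theorem jd_of (S : Sheets d E Γ) {i j : Fin S.N} {z w : Cm d} (hw : w ∈ ball (0 : Cm d) 3)
    {θ : Cm d → Cm d} (hc : ContinuousAt θ z) (hθ : θ z = w)
    (hev : ∀ᶠ u in 𝓝 z, S.σ i u = S.σ j (θ u)) : jd (S.σ i) (S.σ j) z = (jac θ z).det := by
  unfold jd
  rw [jac_congr (tm_of S hw hc hθ hev)]

theorem jd_self (S : Sheets d E Γ) {i : Fin S.N} {z : Cm d} (hz : z ∈ ball (0 : Cm d) 3) :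
    jd (S.σ i) (S.σ i) z = 1 := by
  rw [jd_of S (θ := fun u => u) hz continuousAt_id rfl (Eventually.of_forall fun _ => rfl),
    jac_id, Matrix.det_one]

theorem jd_cocycle (S : Sheets d E Γ) {i j k : Fin S.N} {z w x : Cm d}
    (hz : z ∈ ball (0 : Cm d) 3) (hw : w ∈ ball (0 : Cm d) 3) (hx : x ∈ ball (0 : Cm d) 3)
    (h1 : S.σ i z = S.σ j w) (h2 : S.σ j w = S.σ k x) :
    jd (S.σ i) (S.σ k) z = jd (S.σ j) (S.σ k) w * jd (S.σ i) (S.σ j) z := by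
  obtain ⟨a1, a2, a3⟩ := tm_nhds S hz hw h1
  obtain ⟨b1, b2, b3⟩ := tm_nhds S hw hx h2
  have hc : ContinuousAt (fun u => tm (S.σ j) (S.σ k) (tm (S.σ i) (S.σ j) u)) z := by
    have b1' : ContinuousAt (tm (S.σ j) (S.σ k)) (tm (S.σ i) (S.σ j) z) := by
      rw [a2]; exact b1.continuousAt
    exact ContinuousAt.comp (g := tm (S.σ j) (S.σ k)) (f := tm (S.σ i) (S.σ j)) b1' a1.continuousAt
  rw [jd_of S (θ := fun u => tm (S.σ j) (S.σ k) (tm (S.σ i) (S.σ j) u)) hx hc (by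
    show tm (S.σ j) (S.σ k) (tm (S.σ i) (S.σ j) z) = x
    rw [a2, b2]) ?_]
  · rw [jac_comp a2 b1.differentiableAt a1.differentiableAt, Matrix.det_mul]
    rfl
  · have h3 : ∀ᶠ u in 𝓝 z, S.σ j (tm (S.σ i) (S.σ j) u) =
        S.σ k (tm (S.σ j) (S.σ k) (tm (S.σ i) (S.σ j) u)) := by
      have h4 := a1.continuousAt.tendsto
      rw [a2] at h4
      exact (h4.eventually b3).mono fun u hu => hu.2
    filter_upwards [a3, h3] with u k1 k2
    rw [k1.2, k2]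

theorem jd_ne_zero (S : Sheets d E Γ) {i j : Fin S.N} {z w : Cm d}
    (hz : z ∈ ball (0 : Cm d) 3) (hw : w ∈ ball (0 : Cm d) 3) (h1 : S.σ i z = S.σ j w) :
    jd (S.σ i) (S.σ j) z ≠ 0 := by
  intro h
  have h2 := jd_cocycle S hz hw hz h1 h1.symm
  rw [jd_self S hz, h, mul_zero] at h2
  exact one_ne_zero h2

theorem jd_analyticAt (S : Sheets d E Γ) {i j : Fin S.N} {z w : Cm d}
    (hz : z ∈ ball (0 : Cm d) 3) (hw : w ∈ ball (0 : Cm d) 3) (h1 : S.σ i z = S.σ j w) :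
    AnalyticAt ℂ (jd (S.σ i) (S.σ j)) z := by
  obtain ⟨a1, -, -⟩ := tm_nhds S hz hw h1
  refine det_analyticAt (M := fun y => jac (tm (S.σ i) (S.σ j)) y) fun l k => ?_
  exact (((ContinuousLinearMap.proj (R := ℂ) (φ := fun _ : Fin d => ℂ) l).comp
    (ContinuousLinearMap.apply ℂ (Cm d) (Pi.single k (1 : ℂ) : Cm d))).analyticAt _).comp a1.fderiv

theorem HolD.rel {S : Sheets d E Γ} {s : Fin S.N → Cm d → ℂ} (H : HolD S s) {i j : Fin S.N}
    {z w : Cm d} (hz : z ∈ ball (0 : Cm d) 3) (hw : w ∈ ball (0 : Cm d) 3)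
    (h1 : S.σ i z = S.σ j w) : s i z = s j w * jd (S.σ i) (S.σ j) z := by
  obtain ⟨a1, a2, a3⟩ := tm_nhds S hz hw h1
  exact H.change i j z hz w hw _ a1 a2 (a3.mono fun u hu => hu.2)

section
variable [Subsingleton Γ]

theorem cover1 (S : Sheets d E Γ) (e : E) : ∃ (i : Fin S.N) (z : Cm d), ‖z‖ < 1 ∧ S.σ i z = e := by
  obtain ⟨γ, i, z, hz, h⟩ := S.cover e
  rw [Subsingleton.elim γ 1, one_smul] at h
  exact ⟨i, z, hz, h⟩

/-- Functions on the smaller balls give a form. -/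
theorem glueD (S : Sheets d E Γ) {v : Fin S.N → Cm d → ℂ}
    (hv : ∀ i, DifferentiableOn ℂ (v i) (ball 0 2))
    (hr : ∀ i j, ∀ z ∈ ball (0 : Cm d) 2, ∀ w ∈ ball (0 : Cm d) 2,
      S.σ i z = S.σ j w → v i z = v j w * jd (S.σ i) (S.σ j) z) :
    ∃ s, HolD S s ∧ ∀ i, ∀ z ∈ ball (0 : Cm d) 2, s i z = v i z := by
  choose i z hz he using cover1 S
  have hz2 : ∀ e, z e ∈ ball (0 : Cm d) 2 := fun e => by
    rw [mem_ball_zero_iff]; linarith [hz e]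
  have hz3 : ∀ e, z e ∈ ball (0 : Cm d) 3 := fun e => Sh.mem3 (hz e)
  have h23 : ball (0 : Cm d) 2 ⊆ ball (0 : Cm d) 3 := ball_subset_ball (by norm_num)
  set s : Fin S.N → Cm d → ℂ := fun j x =>
    v (i (S.σ j x)) (z (S.σ j x)) * jd (S.σ j) (S.σ (i (S.σ j x))) x with hs
  have key : ∀ (j : Fin S.N), ∀ x ∈ ball (0 : Cm d) 3, ∀ (k : Fin S.N), ∀ w ∈ ball (0 : Cm d) 2,
      S.σ j x = S.σ k w → s j x = v k w * jd (S.σ j) (S.σ k) x := by
    intro j x hx k w hw h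
    simp only [hs]
    set e := S.σ j x with hedef
    rw [hr (i e) k (z e) (hz2 e) w hw ((he e).trans h),
      jd_cocycle S (i := j) (j := i e) (k := k) hx (hz3 e) (h23 hw) (he e).symm ((he e).trans h)]
    ring
  refine ⟨s, ⟨fun j x₀ hx₀ => ?_, fun j k x hx x' hx' θ hθ hθx hev => ?_⟩, fun j x hx => ?_⟩
  · set e := S.σ j x₀ with hedef
    obtain ⟨a1, a2, a3⟩ := tm_nhds S (i := j) (j := i e) hx₀ (hz3 e) (he e).symm
    have h4 : ∀ᶠ u in 𝓝 x₀, tm (S.σ j) (S.σ (i e)) u ∈ ball (0 : Cm d) 2 :=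
      a1.continuousAt.eventually (isOpen_ball.mem_nhds (a2.symm ▸ hz2 e))
    have h5 : s j =ᶠ[𝓝 x₀] fun u => v (i e) (tm (S.σ j) (S.σ (i e)) u) *
        jd (S.σ j) (S.σ (i e)) u := by
      filter_upwards [a3, h4, isOpen_ball.mem_nhds hx₀] with u k1 k2 k3
      exact key _ _ k3 _ _ k2 k1.2
    have h6 : DifferentiableAt ℂ (v (i e)) (tm (S.σ j) (S.σ (i e)) x₀) := by
      rw [a2]
      exact (hv (i e)).differentiableAt (isOpen_ball.mem_nhds (hz2 e))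
    have h7 : DifferentiableAt ℂ (fun u => v (i e) (tm (S.σ j) (S.σ (i e)) u) *
        jd (S.σ j) (S.σ (i e)) u) x₀ :=
      (DifferentiableAt.comp (g := v (i e)) x₀ h6 a1.differentiableAt).mul
        (jd_analyticAt S hx₀ (hz3 e) (he e).symm).differentiableAt
    exact (h7.congr_of_eventuallyEq h5).differentiableWithinAt
  · have h0 : S.σ j x = S.σ k x' := by
      have := hev.self_of_nhds
      rwa [hθx] at this
    set e := S.σ j x with hedef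
    rw [key j x hx (i e) (z e) (hz2 e) (he e).symm,
      key k x' hx' (i e) (z e) (hz2 e) (h0.symm.trans (he e).symm),
      ← jd_of S hx' hθ.continuousAt hθx hev,
      jd_cocycle S hx hx' (hz3 e) h0 (h0.symm.trans (he e).symm)]
    ring
  · rw [key j x (h23 hx) j x hx rfl, jd_self S (h23 hx), mul_one]

end

end sheets

section fam
variable {p d : ℕ} {E Γ : Type} [TopologicalSpace E] [Group Γ] [MulAction Γ E]

/-- The transition maps of the family. -/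
theorem tm_fam (𝓕 : Fam p d E Γ) {i j : Fin 𝓕.N} {t₁ : Cm p} (ht₁ : t₁ ∈ 𝓕.T) {z₀ w₀ : Cm d}
    (hz₀ : z₀ ∈ ball (0 : Cm d) 3) (hw₀ : w₀ ∈ ball (0 : Cm d) 3)
    (h : 𝓕.σ i t₁ z₀ = 𝓕.σ j t₁ w₀) :
    AnalyticAt ℂ (fun q : Cm p × Cm d => tm (𝓕.σ i q.1) (𝓕.σ j q.1) q.2) (t₁, z₀) ∧
    AnalyticAt ℂ (fun q : Cm p × Cm d => jd (𝓕.σ i q.1) (𝓕.σ j q.1) q.2) (t₁, z₀) ∧
    tm (𝓕.σ i t₁) (𝓕.σ j t₁) z₀ = w₀ ∧
    ∀ᶠ q in 𝓝 (t₁, z₀), q.1 ∈ 𝓕.T ∧ q.2 ∈ ball (0 : Cm d) 3 ∧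
      tm (𝓕.σ i q.1) (𝓕.σ j q.1) q.2 ∈ ball (0 : Cm d) 3 ∧
      𝓕.σ i q.1 q.2 = 𝓕.σ j q.1 (tm (𝓕.σ i q.1) (𝓕.σ j q.1) q.2) := by
  obtain ⟨θ, h1, h2, h3⟩ := exists_trans 𝓕 ht₁ hz₀ hw₀ (γ := 1) (by rw [one_smul, h])
  have h4 : ∀ᶠ q in 𝓝 (t₁, z₀), tm (𝓕.σ i q.1) (𝓕.σ j q.1) q.2 = θ q := by
    filter_upwards [h3] with q hq
    have h5 := hq.2.2.2.1
    rw [one_smul] at h5
    exact tm_eq (𝓕.at q.1 hq.1) hq.2.2.1 h5
  have h5 : ∀ᶠ q in 𝓝 (t₁, z₀), jd (𝓕.σ i q.1) (𝓕.σ j q.1) q.2 = jq θ q := by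
    have h6 : ∀ᶠ q in 𝓝 (t₁, z₀), AnalyticAt ℂ θ q := h1.eventually_analyticAt
    filter_upwards [eventually_eventually_nhds.2 h4, h6] with q k1 k2
    obtain ⟨t, z⟩ := q
    have k3 : Tendsto (fun u : Cm d => (t, u)) (𝓝 z) (𝓝 (t, z)) :=
      (by fun_prop : Continuous fun u : Cm d => (t, u)).tendsto z
    have k4 : tm (𝓕.σ i t) (𝓕.σ j t) =ᶠ[𝓝 z] fun u => θ (t, u) := k3.eventually k1
    show (jac (tm (𝓕.σ i t) (𝓕.σ j t)) z).det = jq θ (t, z)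
    rw [jac_congr k4, jac_slice k2]
  refine ⟨h1.congr (h4.mono fun q hq => hq.symm), (jq_analyticAt h1).congr
    (h5.mono fun q hq => hq.symm), tm_eq (𝓕.at t₁ ht₁) hw₀ h, ?_⟩
  filter_upwards [h3, h4] with q k1 k2
  rw [k2]
  exact ⟨k1.1, k1.2.1, k1.2.2.1, by simpa using k1.2.2.2.1⟩

end fam

attribute [irreducible] tm jd

end Vale.Agent.P281.H594.TS
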