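import Vale.Agent.P281.H64.TS.Spec2
import Vale.Agent.P281.H594.TS.Gr2

/-!
# P281, T-S, block D2 (helper594)
-/

open Set Filter Metric
open scoped Topology

namespace Vale.Agent.P281.H594.TS

open Vale.Agent.P281.H64.TK Vale.Agent.P281.H64.TK.TS
open Vale.Agent.P272.K (Cm)

/-- **Block D2** (Grauert, `h⁰ = 1`). -/
theorem grauert : GrauertStmt := by
  intro p d E Γ _ _ _ _ _ _ _ 𝓕 _ h1 t₀ ht₀
  obtain ⟨T', s, i₀, z₀, h2, h3, h4, h5, h6, h7, h8⟩ := grauert_core 𝓕 h1 ht₀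
  exact ⟨T', s, h2, h3, h4, h6, h7, fun t ht => ⟨i₀, z₀, h5, by rw [h8 t ht]; exact one_ne_zero⟩⟩

end Vale.Agent.P281.H594.TS
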